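import Vale.Agent.P067.Alld.Van.Defs

/-!
P067, part I-a: auxiliary lemmas on translations, relations and chains on faces.
-/

set_option linter.unusedSectionVars false

namespace Vale.Agent.P067.Alld.Van

open Finset Sparse

variable {α β : Type*} [DecidableEq α] [DecidableEq β] {G G' : Type*} [Group G] [Group G']
  [MulAction G α] [MulAction G' β] {F : Finset α → Prop} {F' : Finset β → Prop} {k : ℕ}

theorem sub_eq_add2 {M : Type*} [AddCommGroup M] [Module (ZMod 2) M] (x y : M) :
    x - y = x + y :=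
  sub_eq_iff_eq_add.2 (by rw [add_assoc, add_self_eq_zero', add_zero])

theorem img_one (σ : Finset α) : img (1 : G) σ = σ := by simp [img]

theorem img_img (g h : G) (σ : Finset α) : img g (img h σ) = img (g * h) σ := by
  simp [img, image_image, mul_smul, Function.comp_def]

theorem img_inv_img (g : G) (σ : Finset α) : img g⁻¹ (img g σ) = σ := by
  rw [img_img, inv_mul_cancel, img_one]

theorem card_img (g : G) (σ : Finset α) : (img g σ).card = σ.card :=
  card_image_of_injective _ (MulAction.injective g)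

theorem img_empty (g : G) : img g (∅ : Finset α) = ∅ := by simp [img]

theorem act_single (g : G) (σ : Finset α) :
    act g (Finsupp.single σ 1 : Ch α) = Finsupp.single (img g σ) 1 := by
  simp [act]

theorem act_one (x : Ch α) : act (1 : G) x = x := by
  suffices h : act (1 : G) = (LinearMap.id : Ch α →ₗ[ZMod 2] Ch α) from LinearMap.congr_fun h x
  refine Finsupp.lhom_ext' fun σ => LinearMap.ext_ring ?_
  simp [act_single, img_one]

theorem act_mul (g h : G) (x : Ch α) : act (g * h) x = act g (act h x) := by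
  suffices e : act (g * h) = (act g : Ch α →ₗ[ZMod 2] Ch α) ∘ₗ act h from LinearMap.congr_fun e x
  refine Finsupp.lhom_ext' fun σ => LinearMap.ext_ring ?_
  simp [act_single, img_img]

theorem act_coe {A : Subgroup G} (a : A) (x : Ch α) : act a x = act (a : G) x := rfl

theorem img_coe {A : Subgroup G} (a : A) (σ : Finset α) : img a σ = img (a : G) σ := rfl

theorem bd_act_single (g : G) (σ : Finset α) :
    bd (act g (Finsupp.single σ 1 : Ch α)) = act g (bd (Finsupp.single σ 1)) := by
  rw [act_single, bd_single, bd_single, map_sum, img,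
    sum_image ((MulAction.injective g).injOn)]
  exact sum_congr rfl fun x _ => by rw [act_single, img, image_erase (MulAction.injective g)]

theorem lhom_ext_single {M : Type*} [AddCommGroup M] [Module (ZMod 2) M]
    {L L' : Ch α →ₗ[ZMod 2] M} (h : ∀ σ, L (Finsupp.single σ 1) = L' (Finsupp.single σ 1))
    (x : Ch α) : L x = L' x :=
  LinearMap.congr_fun (Finsupp.lhom_ext' fun σ => LinearMap.ext_ring (h σ)) x

/-- A linear map is in `R` on chains of faces if it is so on the faces. -/
theorem map_mem_of_cs {M : Type*} [AddCommGroup M] [Module (ZMod 2) M] {R : Submodule (ZMod 2) M}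
    {L : Ch α →ₗ[ZMod 2] M} (h : ∀ σ, F σ → σ.card = k → L (Finsupp.single σ 1) ∈ R) {x : Ch α}
    (hx : x ∈ Cs F k) : L x ∈ R := by
  rw [Cs, Finsupp.supported_eq_span_single] at hx
  induction hx using Submodule.span_induction with
  | mem w hw =>
    obtain ⟨σ, hσ, rfl⟩ := hw
    exact h σ hσ.1 hσ.2
  | zero => simp
  | add x y _ _ hx hy => rw [map_add]; exact add_mem hx hy
  | smul c x _ hx => rw [map_smul]; exact R.smul_mem _ hx

theorem eq_of_cs {M : Type*} [AddCommGroup M] [Module (ZMod 2) M] {L L' : Ch α →ₗ[ZMod 2] M}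
    (h : ∀ σ, F σ → σ.card = k → L (Finsupp.single σ 1) = L' (Finsupp.single σ 1)) {x : Ch α}
    (hx : x ∈ Cs F k) : L x = L' x := by
  have := map_mem_of_cs (R := ⊥) (L := L - L') (fun σ h1 h2 => by simp [h σ h1 h2]) hx
  simpa [sub_eq_zero] using this

theorem single_mem_cs {σ : Finset α} (h : F σ) (hc : σ.card = k) :
    Finsupp.single σ (1 : ZMod 2) ∈ Cs F k :=
  Finsupp.single_mem_supported _ _ ⟨h, hc⟩

/-- A linear map is in `R` on relations if it is so on the generators. -/
theorem map_mem_of_rel {M : Type*} [AddCommGroup M] [Module (ZMod 2) M] {R : Submodule (ZMod 2) M}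
    {L : Ch α →ₗ[ZMod 2] M}
    (h : ∀ (g : G) σ, L (Finsupp.single (img g σ) 1 + Finsupp.single σ 1) ∈ R) {x : Ch α}
    (hx : x ∈ Rel G α) : L x ∈ R := by
  induction hx using Submodule.span_induction with
  | mem w hw =>
    obtain ⟨⟨g, σ⟩, rfl⟩ := hw
    exact h g σ
  | zero => simp
  | add x y _ _ hx hy => rw [map_add]; exact add_mem hx hy
  | smul c x _ hx => rw [map_smul]; exact R.smul_mem _ hx

theorem gen_mem_rel (g : G) (σ : Finset α) :
    (Finsupp.single (img g σ) 1 + Finsupp.single σ 1 : Ch α) ∈ Rel G α :=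
  Submodule.subset_span ⟨(g, σ), rfl⟩

theorem gen_mem_rel_of {A : Subgroup G} {g : G} (hg : g ∈ A) (σ : Finset α) :
    (Finsupp.single (img g σ) 1 + Finsupp.single σ 1 : Ch α) ∈ Rel A α :=
  gen_mem_rel (⟨g, hg⟩ : A) σ

theorem act_add_mem_rel' (g : G) (x : Ch α) : act g x + x ∈ Rel G α := by
  suffices h : ∀ x : Ch α, (act g + LinearMap.id : Ch α →ₗ[ZMod 2] Ch α) x ∈ Rel G α from h x
  intro x
  rw [← Finsupp.sum_single x]
  simp only [Finsupp.sum, map_sum]
  refine sum_mem fun σ _ => ?_
  rw [show Finsupp.single σ (x σ) = x σ • Finsupp.single σ 1 by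
    rw [Finsupp.smul_single, smul_eq_mul, mul_one], map_smul]
  refine Submodule.smul_mem _ _ ?_
  simpa [act_single] using gen_mem_rel g σ

/-- Relations of a normalised subgroup are stable. -/
theorem act_mem_rel {A : Subgroup G} {u : G} (hu : ∀ a ∈ A, u * a * u⁻¹ ∈ A) {x : Ch α}
    (hx : x ∈ Rel A α) : act u x ∈ Rel A α := by
  refine map_mem_of_rel (fun a σ => ?_) hx
  rw [map_add, act_single, act_single, img_coe, img_img,
    show u * (a : G) = u * a * u⁻¹ * u by simp [mul_assoc], ← img_img]
  exact gen_mem_rel_of (hu a a.2) _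

theorem cs_mono (hdown : ∀ σ τ, τ ⊆ σ → F σ → F τ) {σ : Finset α} (h : F σ) {j : ℕ}
    (hc : σ.card = j + 1) : bd (Finsupp.single σ 1) ∈ Cs F j := by
  rw [bd_single]
  refine sum_mem fun x hx => single_mem_cs (hdown σ _ (erase_subset _ _) h) ?_
  rw [card_erase_of_mem hx, hc, Nat.add_sub_cancel]

theorem bd_mem_cs (hdown : ∀ σ τ, τ ⊆ σ → F σ → F τ) {x : Ch α} (hx : x ∈ Cs F (k + 1)) :
    bd x ∈ Cs F k :=
  map_mem_of_cs (fun _ h hc => cs_mono hdown h hc) hx

theorem bd_eq_zero_of_cs_zero {x : Ch α} (hx : x ∈ Cs F 0) : bd x = 0 :=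
  eq_of_cs (L := bd) (L' := 0) (fun σ _ hc => by simp [bd_single, card_eq_zero.1 hc]) hx

end Vale.Agent.P067.Alld.Van
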