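import Vale.Agent.P067.Alld.Van.Eq.Basic

/-!
P067, part I-a: equivariant choices on free faces.
-/

set_option linter.unusedSectionVars false

namespace Vale.Agent.P067.Alld.Van

open Finset Sparse

variable {α β : Type*} [DecidableEq α] [DecidableEq β] {G G' : Type*} [Group G] [Group G']
  [MulAction G α] [MulAction G' β]

/-- A choice on representatives of free orbits extends equivariantly, by zero elsewhere. -/
theorem exists_equiv (θ : G →* G') {P : Finset α → Prop}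
    (hP : ∀ (g : G) σ, P σ → P (img g σ))
    (hfree : ∀ σ, P σ → ∀ g : G, img g σ = σ → g = 1) (rel : Finset α → Ch β → Prop)
    (hrel : ∀ (g : G) σ, P σ → ∀ y, rel σ y → rel (img g σ) (act (θ g) y))
    (hex : ∀ σ, P σ → ∃ y, rel σ y) :
    ∃ L : Ch α →ₗ[ZMod 2] Ch β,
      (∀ g x, L (act g x) = act (θ g) (L x)) ∧
      (∀ σ, P σ → rel σ (L (Finsupp.single σ 1))) ∧
      ∀ σ, ¬ P σ → L (Finsupp.single σ 1) = 0 := by
  classical
  choose! Ψ hΨ using hex
  let r : Setoid (Finset α) := ⟨fun σ τ => ∃ g : G, τ = img g σ,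
    ⟨fun σ => ⟨1, (img_one σ).symm⟩,
      fun {σ τ} ⟨g, hg⟩ => ⟨g⁻¹, by rw [hg, img_inv_img]⟩,
      fun {σ τ ρ} ⟨g, hg⟩ ⟨h, hh⟩ => ⟨h * g, by rw [hh, hg, img_img]⟩⟩⟩
  let rep : Finset α → Finset α := fun σ => (Quotient.mk r σ).out
  have hrep : ∀ σ, ∃ g : G, σ = img g (rep σ) := fun σ => Quotient.mk_out (s := r) σ
  choose gg hgg using hrep
  have hP' : ∀ (g : G) σ, P (img g σ) → P σ := fun g σ h => by
    have := hP g⁻¹ _ h
    rwa [img_inv_img] at this
  have hrepP : ∀ σ, P σ → P (rep σ) := fun σ hσ => hP' (gg σ) _ (by rw [← hgg σ]; exact hσ)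
  have hrimg : ∀ (g : G) σ, rep (img g σ) = rep σ := by
    intro g σ
    simp only [rep]
    rw [Quotient.sound (a := img g σ) (b := σ)
      (show r.r _ _ from ⟨g⁻¹, (img_inv_img g σ).symm⟩)]
  have hval : ∀ (g : G) σ, P σ → gg (img g σ) = g * gg σ := by
    intro g σ hσ
    have h1 : img (gg (img g σ)) (rep σ) = img (g * gg σ) (rep σ) := by
      rw [← img_img, ← hgg σ, ← hrimg g σ, ← hgg]
    have h2 := congrArg (img (g * gg σ)⁻¹) h1
    rw [img_inv_img, img_img] at h2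
    exact (inv_mul_eq_one.1 (hfree _ (hrepP σ hσ) _ h2)).symm
  refine ⟨Finsupp.linearCombination (ZMod 2) fun σ =>
      if P σ then act (θ (gg σ)) (Ψ (rep σ)) else 0, fun g x => ?_, fun σ hσ => ?_,
      fun σ hσ => by simp [hσ]⟩
  · set L := Finsupp.linearCombination (ZMod 2) fun σ =>
      if P σ then act (θ (gg σ)) (Ψ (rep σ)) else 0 with hL
    refine lhom_ext_single (L := L ∘ₗ act g) (L' := act (θ g) ∘ₗ L) (fun σ => ?_) x
    by_cases h : P σ
    · simp [hL, act_single, h, hP g σ h, hval g σ h, hrimg, act_mul]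
    · have h' : ¬ P (img g σ) := fun h' => h (hP' g σ h')
      simp [hL, act_single, h, h']
  · have h := hrel (gg σ) _ (hrepP σ hσ) _ (hΨ _ (hrepP σ hσ))
    rw [← hgg σ] at h
    simpa [hσ] using h

/-- Equivariant choices made degree by degree. -/
theorem exists_equiv_degree {F : Finset α → Prop} {D j : ℕ} (θ : G →* G')
    (hF : Cx G F) (hfree : Free G F D) (hj : j + 1 ≤ D) (L₀ : Ch α →ₗ[ZMod 2] Ch β)
    (hL₀ : ∀ g x, L₀ (act g x) = act (θ g) (L₀ x))
    (h0 : ∀ σ, σ.card = j + 1 → L₀ (Finsupp.single σ 1) = 0)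
    (rel : Finset α → Ch β → Prop)
    (hrel : ∀ (g : G) σ, F σ → σ.card = j + 1 → ∀ y, rel σ y → rel (img g σ) (act (θ g) y))
    (hex : ∀ σ, F σ → σ.card = j + 1 → ∃ y, rel σ y) :
    ∃ L : Ch α →ₗ[ZMod 2] Ch β,
      (∀ g x, L (act g x) = act (θ g) (L x)) ∧
      (∀ σ, F σ → σ.card = j + 1 → rel σ (L (Finsupp.single σ 1))) ∧
      (∀ σ, σ.card ≠ j + 1 → L (Finsupp.single σ 1) = L₀ (Finsupp.single σ 1)) ∧
      ∀ σ, ¬ F σ → L (Finsupp.single σ 1) = L₀ (Finsupp.single σ 1) := by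
  obtain ⟨E, hE, hEr, hE0⟩ := exists_equiv θ (P := fun σ => F σ ∧ σ.card = j + 1)
    (fun g σ h => ⟨hF.inv g σ h.1, by rw [card_img, h.2]⟩)
    (fun σ h => hfree σ h.1 (by omega) (by omega)) rel
    (fun g σ h => hrel g σ h.1 h.2) (fun σ h => hex σ h.1 h.2)
  refine ⟨L₀ + E, fun g x => by simp [hL₀, hE], fun σ h hc => ?_, fun σ hc => ?_,
    fun σ h => ?_⟩
  · simpa [h0 σ hc] using hEr σ ⟨h, hc⟩
  · simp [hE0 σ fun h => hc h.2]
  · simp [hE0 σ fun h' => h h'.1]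

end Vale.Agent.P067.Alld.Van
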